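import Vale.Agent.P154.Cert.PolyCheck

/-!
Bisection certificates whose leaves choose among alternatives.
-/

namespace Vale.Agent.P154.PolyCheck

/-- `cut i l r` halves variable `i`; `leaf j` names an alternative. -/
inductive ACut
  | leaf (j : ℕ)
  | cut (i : ℕ) (l r : ACut)

/-- All expressions of a list are certified on the box. -/
def allBox (n : ℕ) (B : List Iv) : List Ex → Bool
  | [] => true
  | e :: es => (e.ok n && boxCheck n e B) && allBox n B es

/-- Each leaf certifies every expression of its alternative. -/
def checkAlt (n : ℕ) (alts : List (List Ex)) : ACut → List Iv → Bool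
  | .leaf j, B =>
    match alts[j]? with
    | some es => allBox n B es
    | none => false
  | .cut i l r, B =>
    checkAlt n alts l (halve Iv.low i B) && checkAlt n alts r (halve Iv.high i B)

theorem allBox_sound (n : ℕ) (B : List Iv) (x : ℕ → ℝ) (hx : BoxMem B x) :
    ∀ es, allBox n B es = true → ∀ e ∈ es, 0 ≤ e.eval x
  | [], _, e, he => by simp at he
  | f :: fs, h, e, he => by
    simp only [allBox, Bool.and_eq_true] at h
    rcases List.mem_cons.mp he with rfl | he
    · exact boxCheck_sound n e B h.1.1 h.1.2 x hx
    · exact allBox_sound n B x hx fs h.2 e he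

theorem checkAlt_sound (n : ℕ) (alts : List (List Ex)) :
    ∀ (T : ACut) (B : List Iv) (x : ℕ → ℝ), checkAlt n alts T B = true → BoxMem B x →
      ∃ es ∈ alts, ∀ e ∈ es, 0 ≤ e.eval x
  | .leaf j, B, x, h, hB => by
    simp only [checkAlt] at h
    cases hj : alts[j]? with
    | none => simp [hj] at h
    | some es =>
      simp only [hj] at h
      exact ⟨es, List.mem_of_getElem? hj, allBox_sound n B x hB es h⟩
  | .cut i l r, B, x, h, hB => by
    simp only [checkAlt, Bool.and_eq_true] at h
    rcases boxMem_split i B x hB with h' | h'
    · exact checkAlt_sound n alts l _ x h.1 h'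
    · exact checkAlt_sound n alts r _ x h.2 h'

end Vale.Agent.P154.PolyCheck
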