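import Vale.Agent.P154.Cert.AltCheck

/-!
A faster box check for two variables: the expression is expanded once to its coefficient lists,
which are homogenised by Horner's rule.
-/

namespace Vale.Agent.P154.PolyCheck

/-- The coefficient lists of an expression. -/
def toP : Ex → P 2
  | .c k => cst 2 k
  | .v i => var 2 i
  | .add a b => add 2 (toP a) (toP b)
  | .sub a b => add 2 (toP a) (mul 2 (cst 2 (-1)) (toP b))
  | .mul a b => mul 2 (toP a) (toP b)
  | .pow a k => Nat.rec (cst 2 1) (fun _ r => mul 2 (toP a) r) k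

/-- The value in a commutative ring. -/
def evR {R : Type} (o : Ops R) : Ex → R
  | .c k => o.c k
  | .v i => o.num i
  | .add a b => o.add (evR o a) (evR o b)
  | .sub a b => o.add (evR o a) (o.mul (o.c (-1)) (evR o b))
  | .mul a b => o.mul (evR o a) (evR o b)
  | .pow a k => Nat.rec (o.c 1) (fun _ r => o.mul (evR o a) r) k

/-- Plain operations on integers at a point. -/
def plainZ (T : ℕ → ℤ) : Ops ℤ where
  c k := k
  num := T
  den _ := 1
  add := Int.add
  mul := Int.mul

/-- Plain bound operations. -/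
def plainN : Ops ℕ where
  c k := k.natAbs
  num _ := 1
  den _ := 1
  add := Nat.add
  mul := Nat.mul

theorem toP_rel {S : Type} (o : Ops S) (Rel : P 2 → S → Prop)
    (hc : ∀ k, Rel (cst 2 k) (o.c k)) (hv : ∀ i, i < 2 → Rel (var 2 i) (o.num i))
    (hadd : ∀ a a' b b', Rel a a' → Rel b b' → Rel (add 2 a b) (o.add a' b'))
    (hmul : ∀ a a' b b', Rel a a' → Rel b b' → Rel (mul 2 a b) (o.mul a' b')) :
    ∀ e : Ex, e.ok 2 = true → Rel (toP e) (evR o e) := by
  intro e
  induction e with
  | c k => exact fun _ => hc k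
  | v i => exact fun h => hv i (by simpa [Ex.ok] using h)
  | add a b iha ihb =>
    intro h
    simp only [Ex.ok, Bool.and_eq_true] at h
    exact hadd _ _ _ _ (iha h.1) (ihb h.2)
  | sub a b iha ihb =>
    intro h
    simp only [Ex.ok, Bool.and_eq_true] at h
    exact hadd _ _ _ _ (iha h.1) (hmul _ _ _ _ (hc _) (ihb h.2))
  | mul a b iha ihb =>
    intro h
    simp only [Ex.ok, Bool.and_eq_true] at h
    exact hmul _ _ _ _ (iha h.1) (ihb h.2)
  | pow a k iha =>
    intro h
    induction k with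
    | zero => exact hc 1
    | succ k ih => exact hmul _ _ _ _ (iha (by simpa [Ex.ok] using h)) (ih (by simpa [Ex.ok] using h))

theorem toP_eval : ∀ (e : Ex), e.ok 2 = true → ∀ x : ℕ → ℝ, ev 2 (toP e) x = e.eval x
  | .c k, _, x => ev_cst 2 k x
  | .v i, h, x => ev_var 2 i x (by simpa [Ex.ok] using h)
  | .add a b, h, x => by
    simp only [Ex.ok, Bool.and_eq_true] at h
    simp [toP, ev_add, toP_eval a h.1, toP_eval b h.2, Ex.eval]
  | .sub a b, h, x => by
    simp only [Ex.ok, Bool.and_eq_true] at h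
    simp [toP, ev_add, ev_mul, ev_cst, toP_eval a h.1, toP_eval b h.2, Ex.eval, sub_eq_add_neg]
  | .mul a b, h, x => by
    simp only [Ex.ok, Bool.and_eq_true] at h
    simp [toP, ev_mul, toP_eval a h.1, toP_eval b h.2, Ex.eval]
  | .pow a k, h, x => by
    have ha : a.ok 2 = true := by simpa [Ex.ok] using h
    induction k with
    | zero => simp [toP, ev_cst, Ex.eval]
    | succ k ih =>
      have ih' := ih (by simpa [Ex.ok] using ha)
      simp only [toP, Ex.eval] at ih' ⊢
      rw [ev_mul, ih', toP_eval a ha, pow_succ']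

theorem fits_toP : ∀ (e : Ex), e.ok 2 = true → Fits 2 e.deg (toP e)
  | .c k, _ => fits_cst 2 k _
  | .v i, _ => fits_mono 2 (fun j _ => by
      by_cases h : i = j <;> simp [delta, Ex.deg, h]) (fits_var 2 i)
  | .add a b, h => by
    simp only [Ex.ok, Bool.and_eq_true] at h
    exact fits_add 2 (fits_mono 2 (fun j _ => le_max_left _ _) (fits_toP a h.1))
      (fits_mono 2 (fun j _ => le_max_right _ _) (fits_toP b h.2))
  | .sub a b, h => by
    simp only [Ex.ok, Bool.and_eq_true] at h
    exact fits_add 2 (fits_mono 2 (fun j _ => le_max_left _ _) (fits_toP a h.1))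
      (fits_mono 2 (fun j _ => by simp [Ex.deg])
        (fits_mul 2 (fits_cst 2 (-1) fun _ => 0) (fits_toP b h.2)))
  | .mul a b, h => by
    simp only [Ex.ok, Bool.and_eq_true] at h
    exact fits_mul 2 (fits_toP a h.1) (fits_toP b h.2)
  | .pow a k, h => by
    have ha : a.ok 2 = true := by simpa [Ex.ok] using h
    have hf := fits_toP a ha
    induction k with
    | zero => exact fits_cst 2 1 _
    | succ k ih =>
      exact fits_mono 2 (fun j _ => by simp [Ex.deg, Nat.succ_mul, add_comm])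
        (fits_mul 2 hf (ih (by simpa [Ex.ok] using ha)))

/-- Balanced digits. -/
def digitsZ (B : ℤ) : ℕ → ℤ → List ℤ
  | 0, _ => []
  | k + 1, V =>
    let r := Int.emod V B
    let c := bif isNN (Int.sub B (Int.mul 2 r)) then r else Int.sub r B
    c :: digitsZ B k (Int.ediv (Int.sub V c) B)

/-- Digits in rows. -/
def rowsOf (w : ℕ) : ℕ → List ℤ → List (P 1)
  | 0, _ => []
  | k + 1, l => (l.take w : List ℤ) :: rowsOf w k (l.drop w)

/-- The coefficient bound of an expression. -/
def bnd (e : Ex) : ℕ := evR plainN e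

/-- The packing base of an expression. -/
def base (e : Ex) : ℤ := Int.ofNat (4 * bnd e + 1)

/-- The expansion read off from one packed value. -/
def expand (e : Ex) : P 2 :=
  rowsOf (e.deg 1 + 1) (e.deg 0 + 1)
    (digitsZ (base e) ((e.deg 0 + 1) * (e.deg 1 + 1))
      (evR (plainZ (packPt (base e) 2 e.deg)) e))

/-- The expansion has the right shape, bound and packed value. -/
def expandOK (e : Ex) : Bool :=
  e.ok 2 && decide ((show List (P 1) from expand e).length ≤ e.deg 0 + 1) &&
    (show List (P 1) from expand e).all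
      (fun row => decide ((show List ℤ from row).length ≤ e.deg 1 + 1)) &&
    decide (l1 2 (expand e) ≤ bnd e) &&
    decide (ev (R := ℤ) 2 (expand e) (packPt (base e) 2 e.deg) =
      evR (plainZ (packPt (base e) 2 e.deg)) e)

theorem lev_eq_zero (B : ℤ) : ∀ l : List ℤ, (∀ a ∈ l, (a.natAbs : ℤ) < B) → lev id l B = 0 →
    ∀ a ∈ l, a = 0
  | [], _, _ => by simp
  | c :: cs, hb, hv => by
    simp only [List.forall_mem_cons] at hb
    simp only [lev, id] at hv
    have hc : c = 0 := by
      refine Int.eq_zero_of_dvd_of_natAbs_lt_natAbs (d := B) ⟨-lev id cs B, by linarith⟩ ?_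
      have := hb.1
      omega
    subst hc
    have hB : B ≠ 0 := by have := hb.1; omega
    simp only [zero_add, mul_eq_zero, hB, false_or] at hv
    simp only [List.forall_mem_cons, true_and]
    exact lev_eq_zero B cs hb.2 hv

theorem ev_eq_zero : ∀ (n : ℕ) (d : ℕ → ℕ) (p : P n) (x : ℕ → ℝ), Fits n d p →
    (∀ a ∈ flat n d p, a = 0) → ev n p x = 0
  | 0, _, a, _, _, h => by
    show ((a : ℤ) : ℝ) = 0
    rw [h a (by simp [flat]), Int.cast_zero]
  | n + 1, d, l, x, hf, h => by
    have key : ∀ m : List (P n), (∀ c ∈ m, ev n c (fun i => x (i + 1)) = 0) →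
        lev (fun c => ev n c fun i => x (i + 1)) m (x 0) = 0 := by
      intro m hm
      induction m with
      | nil => rfl
      | cons c cs ih =>
        simp only [List.forall_mem_cons] at hm
        simp [lev, hm.1, ih hm.2]
    exact key l fun c hc => ev_eq_zero n _ c _ (hf.2 c hc)
      fun a ha => h a (mem_flatL _ _ _ l hf.1 c hc a ha)

theorem expand_eval (e : Ex) (h : expandOK e = true) (x : ℕ → ℝ) :
    ev 2 (expand e) x = e.eval x := by
  simp only [expandOK, Bool.and_eq_true, decide_eq_true_eq, List.all_eq_true] at h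
  obtain ⟨⟨⟨⟨ho, h0⟩, h1⟩, hl⟩, hv⟩ := h
  rw [← toP_eval e ho x]
  set q := expand e with hq
  set T := packPt (base e) 2 e.deg with hT
  set D := add 2 q (mul 2 (cst 2 (-1)) (toP e)) with hD
  have hfq : Fits 2 e.deg q :=
    ⟨h0, fun row hr => ⟨h1 row hr, fun c _ => trivial⟩⟩
  have hfD : Fits 2 e.deg D := fits_add 2 hfq
    (fits_mono 2 (fun j _ => by simp) (fits_mul 2 (fits_cst 2 (-1) fun _ => 0) (fits_toP e ho)))
  have hlp : PolyCheck.l1 2 (toP e) ≤ bnd e := by
    refine toP_rel plainN (fun p m => PolyCheck.l1 2 p ≤ m) (fun k => (l1_cst 2 k).le)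
      (fun i _ => l1_var 2 i) (fun a a' b b' ha hb => ?_) (fun a a' b b' ha hb => ?_) e ho
    · exact (l1_add 2 _ _).trans (add_le_add ha hb)
    · exact (l1_mul 2 _ _).trans (Nat.mul_le_mul ha hb)
  have hvp : ev 2 (toP e) T = evR (plainZ T) e := by
    refine toP_rel (plainZ T) (fun p z => ev 2 p T = z) (fun k => ?_) (fun i hi => ?_)
      (fun a a' b b' ha hb => ?_) (fun a a' b b' ha hb => ?_) e ho
    · simp [plainZ, ev_cst]
    · simp [plainZ, ev_var 2 i _ hi]
    · simp [plainZ, ev_add, ha, hb]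
    · simp [plainZ, ev_mul, ha, hb]
  have hlD : PolyCheck.l1 2 D ≤ 2 * bnd e := by
    refine (l1_add 2 _ _).trans ?_
    have := l1_mul 2 (cst 2 (-1)) (toP e)
    rw [l1_cst] at this
    simp only [Int.natAbs_neg, Int.natAbs_one, one_mul] at this
    omega
  obtain ⟨-, s2, s3⟩ := flat_spec (base e) 2 e.deg D hfD
  have hzero : ∀ a ∈ flat 2 e.deg D, a = 0 := by
    refine lev_eq_zero (base e) _ (fun a ha => ?_) ?_
    · have := s3 a ha
      simp only [base, Int.ofNat_eq_natCast]
      omega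
    · rw [s2, hD, ev_add, ev_mul, ev_cst, ← hT, hvp, hv]
      simp
  have := ev_eq_zero 2 e.deg D x hfD hzero
  rw [hD, ev_add, ev_mul, ev_cst] at this
  push_cast at this
  linarith

/-- Homogeneous Horner evaluation of degree `k`: the value, and the next power of `D`. -/
def hlev {α R : Type} (addR mulR : R → R → R) (zeroR N D : R) (f : α → R) :
    ℕ → List α → R × R
  | 0, [] => (zeroR, D)
  | 0, c :: _ => (f c, D)
  | k + 1, [] =>
    let r := hlev addR mulR zeroR N D f k []
    (mulR N r.1, mulR D r.2)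
  | k + 1, c :: cs =>
    let r := hlev addR mulR zeroR N D f k cs
    (addR (mulR (f c) r.2) (mulR N r.1), mulR D r.2)

/-- Homogenised evaluation of coefficient lists in two variables. -/
def hom2 {R : Type} (o : Ops R) (d0 d1 : ℕ) (l : P 2) : R :=
  (hlev o.add o.mul (o.c 0) (o.num 0) (o.den 0)
    (fun row : P 1 => (hlev o.add o.mul (o.c 0) (o.num 1) (o.den 1) o.c d1 row).1) d0 l).1

theorem hlev_rel {α R S : Type} {addR mulR : R → R → R} {addS mulS : S → S → S}
    {zR N D : R} {zS N' D' : S} {f : α → R} {f' : α → S} (Rel : R → S → Prop)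
    (hz : Rel zR zS) (hN : Rel N N') (hD : Rel D D') (hf : ∀ c, Rel (f c) (f' c))
    (hadd : ∀ a a' b b', Rel a a' → Rel b b' → Rel (addR a b) (addS a' b'))
    (hmul : ∀ a a' b b', Rel a a' → Rel b b' → Rel (mulR a b) (mulS a' b')) :
    ∀ (k : ℕ) (l : List α), Rel (hlev addR mulR zR N D f k l).1 (hlev addS mulS zS N' D' f' k l).1 ∧
      Rel (hlev addR mulR zR N D f k l).2 (hlev addS mulS zS N' D' f' k l).2
  | 0, [] => ⟨hz, hD⟩
  | 0, c :: _ => ⟨hf c, hD⟩
  | k + 1, [] => by
    obtain ⟨h1, h2⟩ := hlev_rel Rel hz hN hD hf hadd hmul k []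
    exact ⟨hmul _ _ _ _ hN h1, hmul _ _ _ _ hD h2⟩
  | k + 1, c :: cs => by
    obtain ⟨h1, h2⟩ := hlev_rel Rel hz hN hD hf hadd hmul k cs
    exact ⟨hadd _ _ _ _ (hmul _ _ _ _ (hf c) h2) (hmul _ _ _ _ hN h1), hmul _ _ _ _ hD h2⟩

theorem hom2_rel {R S : Type} (o : Ops R) (o' : Ops S) (Rel : R → S → Prop)
    (hc : ∀ k, Rel (o.c k) (o'.c k)) (hnum : ∀ i, i < 2 → Rel (o.num i) (o'.num i))
    (hden : ∀ i, i < 2 → Rel (o.den i) (o'.den i))
    (hadd : ∀ a a' b b', Rel a a' → Rel b b' → Rel (o.add a b) (o'.add a' b'))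
    (hmul : ∀ a a' b b', Rel a a' → Rel b b' → Rel (o.mul a b) (o'.mul a' b'))
    (d0 d1 : ℕ) (l : P 2) : Rel (hom2 o d0 d1 l) (hom2 o' d0 d1 l) :=
  (hlev_rel Rel (hc 0) (hnum 0 (by norm_num)) (hden 0 (by norm_num))
    (fun row => (hlev_rel Rel (hc 0) (hnum 1 (by norm_num)) (hden 1 (by norm_num)) hc hadd hmul
      d1 row).1) hadd hmul d0 l).1

theorem hlev_eval {α : Type} (N D x : ℝ) (hN : N = x * D) (e f : α → ℝ) (S : ℝ)
    (hf : ∀ c, f c = e c * S) : ∀ (k : ℕ) (l : List α), l.length ≤ k + 1 →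
    (hlev (· + ·) (· * ·) 0 N D f k l).2 = D ^ (k + 1) ∧
    (hlev (· + ·) (· * ·) 0 N D f k l).1 = lev e l x * S * D ^ k
  | 0, [], _ => by simp [hlev, lev]
  | 0, [c], _ => by simp [hlev, lev, hf]
  | 0, _ :: _ :: _, h => by simp at h
  | k + 1, [], _ => by
    obtain ⟨h1, h2⟩ := hlev_eval N D x hN e f S hf k [] (Nat.zero_le _)
    simp only [hlev, h1, h2, lev]
    subst hN
    constructor <;> ring
  | k + 1, c :: cs, h => by
    obtain ⟨h1, h2⟩ := hlev_eval N D x hN e f S hf k cs (by simpa using h)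
    simp only [hlev, h1, h2, lev, hf]
    subst hN
    constructor <;> ring

theorem hom2_eval (bx : List Iv) (t x : ℕ → ℝ)
    (hx : ∀ i, i < 2 → (opsR bx t).num i = x i * (opsR bx t).den i) {d0 d1 : ℕ} (l : P 2)
    (h0 : (show List (P 1) from l).length ≤ d0 + 1)
    (h1 : ∀ row ∈ (show List (P 1) from l), (show List ℤ from row).length ≤ d1 + 1) :
    hom2 (opsR bx t) d0 d1 l =
      ev 2 l x * ((opsR bx t).den 1 ^ d1 * (opsR bx t).den 0 ^ d0) := by
  classical
  let g : P 1 → ℝ := fun row =>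
    if (show List ℤ from row).length ≤ d1 + 1 then
      (hlev (· + ·) (· * ·) 0 ((opsR bx t).num 1) ((opsR bx t).den 1) (opsR bx t).c d1 row).1
    else ev 1 row (fun i => x (i + 1)) * (opsR bx t).den 1 ^ d1
  have hg : ∀ row, g row = ev 1 row (fun i => x (i + 1)) * (opsR bx t).den 1 ^ d1 := by
    intro row
    simp only [g]
    split
    · next h =>
      have := (hlev_eval (α := ℤ) _ _ _ (hx 1 (by norm_num)) (fun c : ℤ => (c : ℝ))
        (opsR bx t).c 1 (fun c => by simp [opsR]) d1 row h).2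
      rw [this, mul_one]
      rfl
    · rfl
  have key : ∀ (k : ℕ) (m : List (P 1)),
      (∀ row ∈ m, (show List ℤ from row).length ≤ d1 + 1) →
      hlev (· + ·) (· * ·) (0 : ℝ) ((opsR bx t).num 0) ((opsR bx t).den 0)
        (fun row : P 1 => (hlev (· + ·) (· * ·) 0 ((opsR bx t).num 1) ((opsR bx t).den 1)
          (opsR bx t).c d1 row).1) k m =
      hlev (· + ·) (· * ·) (0 : ℝ) ((opsR bx t).num 0) ((opsR bx t).den 0) g k m := by
    intro k
    induction k with
    | zero =>
      intro m hm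
      rcases m with _ | ⟨c, cs⟩
      · rfl
      · simp only [hlev, g, if_pos (hm c List.mem_cons_self)]
    | succ k ih =>
      intro m hm
      rcases m with _ | ⟨c, cs⟩
      · simp only [hlev, ih [] (by simp)]
      · simp only [hlev, ih cs fun r hr => hm r (List.mem_cons_of_mem _ hr), g,
          if_pos (hm c List.mem_cons_self)]
  have hc0 : (opsR bx t).c 0 = 0 := Int.cast_zero
  show (hlev (opsR bx t).add (opsR bx t).mul _ _ _ _ d0 l).1 = _
  rw [hc0]
  show (hlev (· + ·) (· * ·) (0 : ℝ) _ _ (fun row : P 1 => (hlev (· + ·) (· * ·) (0 : ℝ)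
    ((opsR bx t).num 1) ((opsR bx t).den 1) (opsR bx t).c d1 row).1) d0 l).1 = _
  rw [key d0 l h1]
  rw [(hlev_eval _ _ _ (hx 0 (by norm_num)) (fun row => ev 1 row fun i => x (i + 1)) g _ hg d0 l
    h0).2, mul_assoc]
  rfl

/-- Degrees of a pair. -/
def deg2 (d0 d1 : ℕ) : ℕ → ℕ
  | 0 => d0
  | 1 => d1
  | _ => 0

theorem fits_hom2 (bx : List Iv) (d0 d1 : ℕ) (l : P 2) :
    Fits 2 (deg2 d0 d1) (hom2 (opsP bx 2) d0 d1 l) := by
  have inner : ∀ (k : ℕ) (row : List ℤ),
      Fits 2 (deg2 0 k) (hlev (add 2) (mul 2) (cst 2 0) ((opsP bx 2).num 1) ((opsP bx 2).den 1)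
        (cst 2) k row).1 ∧
      Fits 2 (deg2 0 (k + 1)) (hlev (add 2) (mul 2) (cst 2 0) ((opsP bx 2).num 1)
        ((opsP bx 2).den 1) (cst 2) k row).2 := by
    have hD : Fits 2 (deg2 0 1) ((opsP bx 2).den 1) :=
      fits_mono 2 (fun i hi => by rcases i with _ | _ | i <;> simp [delta, deg2])
        (fits_den bx 2 1)
    have hN : Fits 2 (deg2 0 1) ((opsP bx 2).num 1) :=
      fits_mono 2 (fun i hi => by rcases i with _ | _ | i <;> simp [delta, deg2])
        (fits_num bx 2 1)
    intro k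
    induction k with
    | zero =>
      intro row
      rcases row with _ | ⟨c, cs⟩
      · exact ⟨fits_cst 2 0 _, hD⟩
      · exact ⟨fits_cst 2 c _, hD⟩
    | succ k ih =>
      have up : ∀ i, i < 2 → deg2 0 1 i + deg2 0 (k + 1) i ≤ deg2 0 (k + 1 + 1) i := fun i hi => by
        rcases i with _ | _ | i <;> simp [deg2] <;> omega
      have up' : ∀ i, i < 2 → deg2 0 1 i + deg2 0 k i ≤ deg2 0 (k + 1) i := fun i hi => by
        rcases i with _ | _ | i <;> simp [deg2] <;> omega
      intro row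
      rcases row with _ | ⟨c, cs⟩
      · obtain ⟨h1, h2⟩ := ih []
        exact ⟨fits_mono 2 up' (fits_mul 2 hN h1), fits_mono 2 up (fits_mul 2 hD h2)⟩
      · obtain ⟨h1, h2⟩ := ih cs
        exact ⟨fits_add 2 (fits_mono 2 (fun i _ => by simp) (fits_mul 2 (fits_cst 2 c fun _ => 0) h2))
          (fits_mono 2 up' (fits_mul 2 hN h1)), fits_mono 2 up (fits_mul 2 hD h2)⟩
  have hD : Fits 2 (deg2 1 0) ((opsP bx 2).den 0) :=
    fits_mono 2 (fun i hi => by rcases i with _ | _ | i <;> simp [delta, deg2]) (fits_den bx 2 0)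
  have hN : Fits 2 (deg2 1 0) ((opsP bx 2).num 0) :=
    fits_mono 2 (fun i hi => by rcases i with _ | _ | i <;> simp [delta, deg2]) (fits_num bx 2 0)
  suffices outer : ∀ (k : ℕ) (m : List (P 1)),
      Fits 2 (deg2 k d1) (hlev (add 2) (mul 2) (cst 2 0) ((opsP bx 2).num 0) ((opsP bx 2).den 0)
        (fun row : P 1 => (hlev (add 2) (mul 2) (cst 2 0) ((opsP bx 2).num 1)
          ((opsP bx 2).den 1) (cst 2) d1 row).1) k m).1 ∧
      Fits 2 (deg2 (k + 1) 0) (hlev (add 2) (mul 2) (cst 2 0) ((opsP bx 2).num 0)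
        ((opsP bx 2).den 0) (fun row : P 1 => (hlev (add 2) (mul 2) (cst 2 0) ((opsP bx 2).num 1)
          ((opsP bx 2).den 1) (cst 2) d1 row).1) k m).2 from (outer d0 l).1
  intro k
  induction k with
  | zero =>
    intro m
    rcases m with _ | ⟨c, cs⟩
    · exact ⟨fits_cst 2 0 _, hD⟩
    · exact ⟨(inner d1 c).1, hD⟩
  | succ k ih =>
    have up : ∀ i, i < 2 → deg2 1 0 i + deg2 (k + 1) 0 i ≤ deg2 (k + 1 + 1) 0 i := fun i hi => by
      rcases i with _ | _ | i <;> simp [deg2] <;> omega
    have up' : ∀ i, i < 2 → deg2 1 0 i + deg2 k d1 i ≤ deg2 (k + 1) d1 i := fun i hi => by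
      rcases i with _ | _ | i <;> simp [deg2] <;> omega
    have upc : ∀ i, i < 2 → deg2 0 d1 i + deg2 (k + 1) 0 i ≤ deg2 (k + 1) d1 i := fun i hi => by
      rcases i with _ | _ | i <;> simp [deg2]
    intro m
    rcases m with _ | ⟨c, cs⟩
    · obtain ⟨h1, h2⟩ := ih []
      exact ⟨fits_mono 2 up' (fits_mul 2 hN h1), fits_mono 2 up (fits_mul 2 hD h2)⟩
    · obtain ⟨h1, h2⟩ := ih cs
      exact ⟨fits_add 2 (fits_mono 2 upc (fits_mul 2 (inner d1 c).1 h2))
        (fits_mono 2 up' (fits_mul 2 hN h1)), fits_mono 2 up (fits_mul 2 hD h2)⟩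

/-- The longest row. -/
def rowsLen : List (P 1) → ℕ
  | [] => 0
  | r :: rs => max (show List ℤ from r).length (rowsLen rs)

theorem le_rowsLen : ∀ (l : List (P 1)) (r : P 1), r ∈ l →
    (show List ℤ from r).length ≤ rowsLen l
  | s :: rs, r, h => by
    rcases List.mem_cons.1 h with rfl | h
    · exact le_max_left _ _
    · exact (le_rowsLen rs r h).trans (le_max_right _ _)

/-- The box check from given degrees. -/
def denseBoxAt (d0 d1 : ℕ) (p : P 2) (bx : List Iv) : Bool :=
  boxOK 2 bx &&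
    packedOK (2 * hom2 (opsN bx) d0 d1 p + 1) (size 2 (deg2 d0 d1))
      (hom2 (opsZ bx (packPt (Int.ofNat (2 * hom2 (opsN bx) d0 d1 p + 1)) 2 (deg2 d0 d1)))
        d0 d1 p)

/-- The box check. -/
def denseBox (p : P 2) (bx : List Iv) : Bool :=
  denseBoxAt ((show List (P 1) from p).length - 1) (rowsLen p - 1) p bx

theorem denseBox_sound (p : P 2) (bx : List Iv) (h : denseBox p bx = true) (x : ℕ → ℝ)
    (hx : BoxMem bx x) : 0 ≤ ev 2 p x := by
  unfold denseBox at h
  generalize hd0 : (show List (P 1) from p).length - 1 = d0 at h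
  generalize hd1 : rowsLen p - 1 = d1 at h
  have l0 : (show List (P 1) from p).length ≤ d0 + 1 := by omega
  have l1 : ∀ row ∈ (show List (P 1) from p), (show List ℤ from row).length ≤ d1 + 1 :=
    fun row hr => by have := le_rowsLen p row hr; omega
  simp only [denseBoxAt, Bool.and_eq_true] at h
  obtain ⟨hb, h⟩ := h
  generalize hM : hom2 (opsN bx) d0 d1 p = M at h
  set G := hom2 (opsP bx 2) d0 d1 p with hG
  set T := packPt (Int.ofNat (2 * M + 1)) 2 (deg2 d0 d1) with hT
  have hev : ev 2 G T = hom2 (opsZ bx T) d0 d1 p := by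
    refine hom2_rel (opsP bx 2) (opsZ bx T) (fun q z => ev 2 q T = z) (fun k => ?_)
      (fun i hi => ?_) (fun i hi => ?_) (fun a a' b b' ha hb => ?_)
      (fun a a' b b' ha hb => ?_) d0 d1 p
    · simp [opsP, opsZ, ev_cst]
    · simp [opsP, opsZ, ev_cst, ev_add, ev_mul, ev_var 2 i _ hi]
    · simp [opsP, opsZ, ev_cst, ev_add, ev_mul, ev_var 2 i _ hi]
    · simp [opsP, opsZ, ev_add, ha, hb]
    · simp [opsP, opsZ, ev_mul, ha, hb]
  have hl1 : PolyCheck.l1 2 G ≤ M := by
    rw [← hM]
    refine hom2_rel (opsP bx 2) (opsN bx) (fun q m => PolyCheck.l1 2 q ≤ m) (fun k => ?_)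
      (fun i hi => ?_) (fun i hi => ?_) (fun a a' b b' ha hb => ?_)
      (fun a a' b b' ha hb => ?_) d0 d1 p
    · exact (l1_cst 2 k).le
    · refine (l1_add 2 _ _).trans (add_le_add (l1_cst 2 _).le ((l1_mul 2 _ _).trans ?_))
      rw [l1_cst]
      exact mul_le_of_le_one_right (Nat.zero_le _) (l1_var 2 i)
    · refine (l1_mul 2 _ _).trans (Nat.mul_le_mul (l1_cst 2 _).le ((l1_add 2 _ _).trans ?_))
      have := l1_var 2 i
      have : PolyCheck.l1 2 (cst 2 1) = 1 := l1_cst 2 1
      omega
    · exact (l1_add 2 _ _).trans (add_le_add ha hb)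
    · exact (l1_mul 2 _ _).trans (Nat.mul_le_mul ha hb)
  have coeffs : ∀ a ∈ flat 2 (deg2 d0 d1) G, 0 ≤ a := by
    obtain ⟨s1, s2, s3⟩ := flat_spec (Int.ofNat (2 * M + 1)) 2 (deg2 d0 d1) G (fits_hom2 bx d0 d1 p)
    rcases hz : hom2 (opsZ bx T) d0 d1 p with N | N
    · rw [hz] at h
      refine digitsOK_sound (2 * M + 1) _ N (fun a ha => ?_) ?_ (by rw [s1]; exact h)
      · have := s3 a ha
        omega
      · have := s2.trans (hev.trans hz)
        simpa using this
    · rw [hz] at h
      simp [packedOK] at h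
  have hI := boxOK_get 2 bx hb
  have interior : ∀ y : ℕ → ℝ, (∀ i, i < 2 → ((getIv bx i).lo : ℝ) ≤ (getIv bx i).den * y i ∧
      (getIv bx i).den * y i < ((getIv bx i).hi : ℝ)) → 0 ≤ ev 2 p y := by
    intro y hy
    set t : ℕ → ℝ := fun i => ((getIv bx i).den * y i - (getIv bx i).lo) /
      ((getIv bx i).hi - (getIv bx i).den * y i) with ht
    have ht0 : ∀ i, i < 2 → 0 ≤ t i := fun i hi => div_nonneg (by linarith [(hy i hi).1])
      (by linarith [(hy i hi).2])
    have hden : ∀ i, i < 2 → 0 < (opsR bx t).den i := fun i hi =>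
      mul_pos (Int.cast_pos.2 (hI i hi).2.1) (by have := ht0 i hi; linarith)
    have hnum : ∀ i, i < 2 → (opsR bx t).num i = y i * (opsR bx t).den i := by
      intro i hi
      have hne : ((getIv bx i).hi : ℝ) - (getIv bx i).den * y i ≠ 0 := by
        have := (hy i hi).2
        intro h0; linarith
      simp only [opsR, ht]
      field_simp
      ring
    have hevR : ev 2 G t = hom2 (opsR bx t) d0 d1 p := by
      refine hom2_rel (opsP bx 2) (opsR bx t) (fun q z => ev 2 q t = z) (fun k => ?_)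
        (fun i hi => ?_) (fun i hi => ?_) (fun a a' b b' ha hb => ?_)
        (fun a a' b b' ha hb => ?_) d0 d1 p
      · simp [opsP, opsR, ev_cst]
      · simp [opsP, opsR, ev_cst, ev_add, ev_mul, ev_var 2 i _ hi]
      · simp [opsP, opsR, ev_cst, ev_add, ev_mul, ev_var 2 i _ hi]
      · simp [opsP, opsR, ev_add, ha, hb]
      · simp [opsP, opsR, ev_mul, ha, hb]
    have h0 := ev_nonneg 2 (deg2 d0 d1) G t (fits_hom2 bx d0 d1 p) ht0 coeffs
    rw [hevR, hom2_eval bx t y hnum p l0 l1] at h0
    exact (mul_nonneg_iff_of_pos_right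
      (mul_pos (pow_pos (hden 1 (by norm_num)) _) (pow_pos (hden 0 (by norm_num)) _))).1 h0
  set path : ℝ → ℕ → ℝ := fun s i =>
    (1 - s) * x i + s * (((getIv bx i).lo : ℝ) / (getIv bx i).den) with hpath
  have cl : ∀ {α : Type} (f : α → (ℕ → ℝ) → ℝ), (∀ c, Continuous (f c)) →
      ∀ l : List α, Continuous fun y : ℕ → ℝ => lev (fun c => f c fun i => y (i + 1)) l (y 0) := by
    intro α f hf l
    have hs : Continuous fun y : ℕ → ℝ => fun i => y (i + 1) :=
      continuous_pi fun i => continuous_apply (i + 1)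
    induction l with
    | nil => exact continuous_const
    | cons c cs ih =>
      simp only [lev]
      exact ((hf c).comp hs).add ((continuous_apply 0).mul ih)
  have hcp : Continuous fun y : ℕ → ℝ => ev 2 p y :=
    cl (fun (row : P 1) y => ev 1 row y)
      (fun row => cl (fun (c : P 0) y => ev 0 c y) (fun c => continuous_const) row) p
  have hc : Continuous fun s => ev 2 p (path s) :=
    hcp.comp (continuous_pi fun i => by simp only [hpath]; fun_prop)
  have hin : Set.Ioc (0 : ℝ) 1 ⊆ {s | 0 ≤ ev 2 p (path s)} := by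
    rintro s ⟨hs0, hs1⟩
    refine interior _ fun i hi => ?_
    obtain ⟨h1, h2, h3⟩ := hI i hi
    have hd : ((getIv bx i).den : ℝ) ≠ 0 := (Int.cast_pos.2 h2).ne'
    have hlh : ((getIv bx i).lo : ℝ) < (getIv bx i).hi := Int.cast_lt.2 h1
    obtain ⟨m1, m2⟩ := boxMem_get bx x hx i h3
    have e1 : ((getIv bx i).den : ℝ) * path s i =
        (1 - s) * ((getIv bx i).den * x i) + s * (getIv bx i).lo := by
      simp only [hpath]
      field_simp
    rw [e1]
    constructor
    · nlinarith
    · nlinarith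
  have hcl := closure_minimal hin (isClosed_le continuous_const hc)
  rw [closure_Ioc (by norm_num)] at hcl
  have h0 := hcl ⟨le_refl (0 : ℝ), zero_le_one⟩
  simpa [hpath] using h0

/-- A bisection tree whose leaves each name one expression of a list. -/
def checkDense (es : List Ex) : ACut → List Iv → Bool
  | .leaf j, B =>
    match es[j]? with
    | some e => expandOK e && denseBox (expand e) B
    | none => false
  | .cut i l r, B => checkDense es l (halve Iv.low i B) && checkDense es r (halve Iv.high i B)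

theorem checkDense_sound (es : List Ex) :
    ∀ (T : ACut) (B : List Iv) (x : ℕ → ℝ), checkDense es T B = true → BoxMem B x →
      ∃ e ∈ es, 0 ≤ e.eval x
  | .leaf j, B, x, h, hB => by
    simp only [checkDense] at h
    cases hj : es[j]? with
    | none => simp [hj] at h
    | some e =>
      simp only [hj, Bool.and_eq_true] at h
      refine ⟨e, List.mem_of_getElem? hj, ?_⟩
      rw [← expand_eval e h.1 x]
      exact denseBox_sound _ B h.2 x hB
  | .cut i l r, B, x, h, hB => by
    simp only [checkDense, Bool.and_eq_true] at h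
    rcases boxMem_split i B x hB with h' | h'
    · exact checkDense_sound es l _ x h.1 h'
    · exact checkDense_sound es r _ x h.2 h'

end Vale.Agent.P154.PolyCheck
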