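import Mathlib

/-!
A verified checker for nonnegativity of integer polynomial expressions in `n` variables on
rational boxes, meant for `decide +kernel`.

On `[a_i / e_i, b_i / e_i]` put `x_i = (a_i + b_i t_i) / (e_i (1 + t_i))` and multiply by the
matching powers of `e_i (1 + t_i)`. The expression is nonnegative on the box as soon as all the
coefficients in `t` of this product are nonnegative. The coefficients are never expanded: the
product is evaluated at `t_i = B ^ stride_i` with `B > 2 M`, where `M` bounds the sum of their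
absolute values, and the base-`B` digits of the resulting integer are read off. A tree of
midpoint bisections refines the box.

Usage: `nonneg₂ e ⟨a, b, den⟩ ⟨c, c', den'⟩ tree (by decide +kernel) hx hy`.
-/

namespace Vale.Agent.P154.PolyCheck

/-! ### Coefficient lists (used in the soundness proof only) -/

section Generic

variable {α : Type} {R : Type} [CommRing R]

/-- Evaluation of a coefficient list. -/
def lev (e : α → R) : List α → R → R
  | [], _ => 0
  | c :: cs, x => e c + x * lev e cs x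

/-- Sum of coefficient lists. -/
def ladd (f : α → α → α) : List α → List α → List α
  | [], l => l
  | a :: as, [] => a :: as
  | a :: as, b :: bs => f a b :: ladd f as bs

/-- Product of coefficient lists. -/
def lmul (f g : α → α → α) (z : α) : List α → List α → List α
  | [], _ => []
  | a :: as, l => ladd f (l.map (g a)) (z :: lmul f g z as l)

theorem lev_ladd (e : α → R) (f : α → α → α) (hf : ∀ a b, e (f a b) = e a + e b) :
    ∀ (l m : List α) (x : R), lev e (ladd f l m) x = lev e l x + lev e m x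
  | [], m, x => by simp [ladd, lev]
  | a :: as, [], x => by simp [ladd, lev]
  | a :: as, b :: bs, x => by
    simp only [ladd, lev, lev_ladd e f hf as bs x, hf]
    ring

theorem lev_map {β : Type} (e : α → R) (e' : β → R) (g : β → α) (k : R)
    (hg : ∀ b, e (g b) = k * e' b) :
    ∀ (l : List β) (x : R), lev e (l.map g) x = k * lev e' l x
  | [], x => by simp [lev]
  | b :: bs, x => by
    simp only [List.map_cons, lev, hg, lev_map e e' g k hg bs x]
    ring

theorem lev_lmul (e : α → R) (f g : α → α → α) (z : α) (hz : e z = 0)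
    (hf : ∀ a b, e (f a b) = e a + e b) (hg : ∀ a b, e (g a b) = e a * e b) :
    ∀ (l m : List α) (x : R), lev e (lmul f g z l m) x = lev e l x * lev e m x
  | [], m, x => by simp [lmul, lev]
  | a :: as, m, x => by
    simp only [lmul, lev_ladd e f hf, lev, hz, lev_map e e (g a) (e a) (hg a),
      lev_lmul e f g z hz hf hg as m x]
    ring

/-- Total weight. -/
def lsum (w : α → ℕ) : List α → ℕ
  | [] => 0
  | c :: cs => w c + lsum w cs

theorem lsum_ladd (w : α → ℕ) (f : α → α → α) (hf : ∀ a b, w (f a b) ≤ w a + w b) :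
    ∀ l m : List α, lsum w (ladd f l m) ≤ lsum w l + lsum w m
  | [], m => by simp [ladd, lsum]
  | a :: as, [] => by simp [ladd, lsum]
  | a :: as, b :: bs => by
    simp only [ladd, lsum]
    have := lsum_ladd w f hf as bs
    have := hf a b
    omega

theorem lsum_map (w : α → ℕ) (g : α → α) (k : ℕ) (hg : ∀ b, w (g b) ≤ k * w b) :
    ∀ l : List α, lsum w (l.map g) ≤ k * lsum w l
  | [] => by simp [lsum]
  | b :: bs => by
    simp only [List.map_cons, lsum, mul_add]
    exact add_le_add (hg b) (lsum_map w g k hg bs)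

theorem lsum_lmul (w : α → ℕ) (f g : α → α → α) (z : α) (hz : w z = 0)
    (hf : ∀ a b, w (f a b) ≤ w a + w b) (hg : ∀ a b, w (g a b) ≤ w a * w b) :
    ∀ l m : List α, lsum w (lmul f g z l m) ≤ lsum w l * lsum w m
  | [], m => by simp [lmul, lsum]
  | a :: as, m => by
    simp only [lmul]
    refine (lsum_ladd w f hf _ _).trans ?_
    simp only [lsum, hz, zero_add, add_mul]
    exact add_le_add (lsum_map w _ _ (hg a) m) (lsum_lmul w f g z hz hf hg as m)

theorem length_ladd (f : α → α → α) : ∀ l m : List α,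
    (ladd f l m).length = max l.length m.length
  | [], m => by simp [ladd]
  | a :: as, [] => by simp [ladd]
  | a :: as, b :: bs => by
    simp only [ladd, List.length_cons, length_ladd f as bs]
    omega

theorem length_lmul_le (f g : α → α → α) (z : α) : ∀ (l m : List α) (p r : ℕ),
    l.length ≤ p + 1 → m.length ≤ r + 1 → (lmul f g z l m).length ≤ p + r + 1
  | [], m, p, r, _, _ => by simp [lmul]
  | a :: as, m, p, r, hl, hm => by
    simp only [lmul, length_ladd, List.length_map, List.length_cons] at hl ⊢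
    rcases p with _ | p
    · obtain rfl : as = [] := List.length_eq_zero_iff.1 (by omega)
      simp [lmul]
      omega
    · have := length_lmul_le f g z as m p r (by omega) hm
      omega

theorem forall_ladd (P : α → Prop) (f : α → α → α) (hf : ∀ a b, P a → P b → P (f a b)) :
    ∀ l m : List α, (∀ c ∈ l, P c) → (∀ c ∈ m, P c) → ∀ c ∈ ladd f l m, P c
  | [], m, _, hm => by simpa [ladd] using hm
  | a :: as, [], hl, _ => by simpa [ladd] using hl
  | a :: as, b :: bs, hl, hm => by
    simp only [List.forall_mem_cons] at hl hm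
    simp only [ladd, List.forall_mem_cons]
    exact ⟨hf a b hl.1 hm.1, forall_ladd P f hf as bs hl.2 hm.2⟩

theorem forall_lmul (P Q S : α → Prop) (f g : α → α → α) (z : α) (hz : S z)
    (hf : ∀ a b, S a → S b → S (f a b)) (hg : ∀ a b, P a → Q b → S (g a b)) :
    ∀ l m : List α, (∀ c ∈ l, P c) → (∀ c ∈ m, Q c) → ∀ c ∈ lmul f g z l m, S c
  | [], m, _, _ => by simp [lmul]
  | a :: as, m, hl, hm => by
    simp only [List.forall_mem_cons] at hl
    simp only [lmul]
    refine forall_ladd S f hf _ _ ?_ ?_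
    · intro c hc
      obtain ⟨d, hd, rfl⟩ := List.mem_map.1 hc
      exact hg a d hl.1 (hm d hd)
    · simp only [List.forall_mem_cons]
      exact ⟨hz, forall_lmul P Q S f g z hz hf hg as m hl.2 hm⟩

end Generic

/-- Polynomials in `n` variables, the outer list in variable `0`. -/
@[reducible] def P : ℕ → Type
  | 0 => ℤ
  | n + 1 => List (P n)

/-- Zero. -/
def zero : (n : ℕ) → P n
  | 0 => (0 : ℤ)
  | n + 1 => ([] : List (P n))

/-- Sum. -/
def add : (n : ℕ) → P n → P n → P n
  | 0 => fun a b => Int.add a b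
  | n + 1 => ladd (add n)

/-- Product. -/
def mul : (n : ℕ) → P n → P n → P n
  | 0 => fun a b => Int.mul a b
  | n + 1 => lmul (add n) (mul n) (zero n)

/-- A constant. -/
def cst : (n : ℕ) → ℤ → P n
  | 0, k => k
  | n + 1, k => [cst n k]

/-- A variable. -/
def var : (n : ℕ) → ℕ → P n
  | 0, _ => (0 : ℤ)
  | n + 1, 0 => [zero n, cst n 1]
  | n + 1, i + 1 => [var n i]

/-- Evaluation. -/
def ev {R : Type} [CommRing R] : (n : ℕ) → P n → (ℕ → R) → R
  | 0, a, _ => ((a : ℤ) : R)
  | n + 1, l, x => lev (fun c => ev n c fun i => x (i + 1)) l (x 0)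

section Ev

variable {R : Type} [CommRing R]

theorem ev_zero : ∀ (n : ℕ) (x : ℕ → R), ev n (zero n) x = 0
  | 0, x => Int.cast_zero
  | n + 1, x => rfl

theorem ev_add : ∀ (n : ℕ) (a b : P n) (x : ℕ → R), ev n (add n a b) x = ev n a x + ev n b x
  | 0, a, b, x => Int.cast_add a b
  | n + 1, a, b, x => lev_ladd _ _ (fun c d => ev_add n c d _) a b _

theorem ev_mul : ∀ (n : ℕ) (a b : P n) (x : ℕ → R), ev n (mul n a b) x = ev n a x * ev n b x
  | 0, a, b, x => Int.cast_mul a b
  | n + 1, a, b, x => lev_lmul (fun c => ev n c fun i => x (i + 1)) (add n) (mul n) (zero n)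
      (ev_zero n _) (fun c d => ev_add n c d _) (fun c d => ev_mul n c d _) a b _

theorem ev_cst : ∀ (n : ℕ) (k : ℤ) (x : ℕ → R), ev n (cst n k) x = k
  | 0, k, x => rfl
  | n + 1, k, x => by simp [cst, ev, lev, ev_cst n]

theorem ev_var : ∀ (n i : ℕ) (x : ℕ → R), i < n → ev n (var n i) x = x i
  | 0, i, x, h => absurd h (Nat.not_lt_zero i)
  | n + 1, 0, x, _ => by simp [var, ev, lev, ev_zero, ev_cst]
  | n + 1, i + 1, x, h => by
    simp [var, ev, lev, ev_var n i _ (Nat.lt_of_succ_lt_succ h)]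

end Ev

/-- Sum of the absolute values of the coefficients. -/
def l1 : (n : ℕ) → P n → ℕ
  | 0, a => Int.natAbs a
  | n + 1, l => lsum (l1 n) l

theorem l1_zero : ∀ n, l1 n (zero n) = 0
  | 0 => rfl
  | _ + 1 => rfl

theorem l1_add : ∀ (n : ℕ) (a b : P n), l1 n (add n a b) ≤ l1 n a + l1 n b
  | 0, a, b => Int.natAbs_add_le a b
  | n + 1, a, b => lsum_ladd _ _ (l1_add n) a b

theorem l1_mul : ∀ (n : ℕ) (a b : P n), l1 n (mul n a b) ≤ l1 n a * l1 n b
  | 0, a, b => (Int.natAbs_mul a b).le
  | n + 1, a, b => lsum_lmul _ _ _ _ (l1_zero n) (l1_add n) (l1_mul n) a b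

theorem l1_cst : ∀ (n : ℕ) (k : ℤ), l1 n (cst n k) = k.natAbs
  | 0, k => rfl
  | n + 1, k => by simp [cst, l1, lsum, l1_cst n]

theorem l1_var : ∀ n i : ℕ, l1 n (var n i) ≤ 1
  | 0, i => by simp [var, l1]
  | n + 1, 0 => by simp [var, l1, lsum, l1_zero, l1_cst]
  | n + 1, i + 1 => by simpa [var, l1, lsum] using l1_var n i

/-- Degree bounds. -/
def Fits : (n : ℕ) → (ℕ → ℕ) → P n → Prop
  | 0, _, _ => True
  | n + 1, d, l => (show List (P n) from l).length ≤ d 0 + 1 ∧
      ∀ c ∈ (show List (P n) from l), Fits n (fun i => d (i + 1)) c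

theorem fits_zero : ∀ (n : ℕ) (d : ℕ → ℕ), Fits n d (zero n)
  | 0, _ => trivial
  | n + 1, d => ⟨Nat.zero_le _, by simp [zero]⟩

theorem fits_mono : ∀ (n : ℕ) {d e : ℕ → ℕ} {p : P n}, (∀ i, i < n → d i ≤ e i) → Fits n d p →
    Fits n e p
  | 0, _, _, _, _, _ => trivial
  | n + 1, _, _, _, h, ⟨h1, h2⟩ => ⟨h1.trans (by have := h 0 n.succ_pos; omega),
      fun c hc => fits_mono n (fun i hi => h (i + 1) (by omega)) (h2 c hc)⟩

theorem fits_add : ∀ (n : ℕ) {d : ℕ → ℕ} {a b : P n}, Fits n d a → Fits n d b →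
    Fits n d (add n a b)
  | 0, _, _, _, _, _ => trivial
  | n + 1, d, a, b, ha, hb => ⟨by
      show (ladd (add n) a b).length ≤ _
      rw [length_ladd]
      exact max_le ha.1 hb.1,
    forall_ladd _ _ (fun _ _ => fits_add n) a b ha.2 hb.2⟩

theorem fits_mul : ∀ (n : ℕ) {d e : ℕ → ℕ} {a b : P n}, Fits n d a → Fits n e b →
    Fits n (fun i => d i + e i) (mul n a b)
  | 0, _, _, _, _, _, _ => trivial
  | n + 1, d, e, a, b, ha, hb => ⟨length_lmul_le _ _ _ a b _ _ ha.1 hb.1,
      forall_lmul _ _ _ _ _ _ (fits_zero n _) (fun _ _ => fits_add n) (fun _ _ => fits_mul n)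
        a b ha.2 hb.2⟩

theorem fits_cst : ∀ (n : ℕ) (k : ℤ) (d : ℕ → ℕ), Fits n d (cst n k)
  | 0, _, _ => trivial
  | n + 1, k, d => ⟨by simp [cst], by simp [cst, fits_cst n k]⟩

/-- The indicator degree. -/
def delta (i j : ℕ) : ℕ := if i = j then 1 else 0

theorem fits_var : ∀ n i : ℕ, Fits n (delta i) (var n i)
  | 0, _ => trivial
  | n + 1, 0 => ⟨by simp [var, delta], by simp [var, fits_zero, fits_cst]⟩
  | n + 1, i + 1 => by
    refine ⟨by simp [var], ?_⟩
    have e : (fun j => delta (i + 1) (j + 1)) = delta i := funext fun j => by simp [delta]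
    simp [var, e, fits_var n i]

/-! ### Kronecker packing -/

/-- Number of monomials within degree `d`. -/
def size : (n : ℕ) → (ℕ → ℕ) → ℕ
  | 0, _ => 1
  | n + 1, d => (d 0 + 1) * size n fun i => d (i + 1)

/-- The packing point. -/
def packPt (B : ℤ) : (n : ℕ) → (ℕ → ℕ) → ℕ → ℤ
  | 0, _, _ => 0
  | n + 1, d, 0 => B ^ size n fun i => d (i + 1)
  | n + 1, d, i + 1 => packPt B n (fun j => d (j + 1)) i

/-- Flattened coefficients in `m` blocks. -/
def flatL {α : Type} (fl : α → List ℤ) (w : ℕ) : ℕ → List α → List ℤ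
  | 0, _ => []
  | m + 1, [] => List.replicate w 0 ++ flatL fl w m []
  | m + 1, c :: cs => fl c ++ flatL fl w m cs

/-- Flattened coefficients. -/
def flat : (n : ℕ) → (ℕ → ℕ) → P n → List ℤ
  | 0, _, a => [a]
  | n + 1, d, l =>
    flatL (flat n fun i => d (i + 1)) (size n fun i => d (i + 1)) (d 0 + 1) l

theorem lev_append (l m : List ℤ) (B : ℤ) :
    lev id (l ++ m) B = lev id l B + B ^ l.length * lev id m B := by
  induction l with
  | nil => simp [lev]
  | cons a as ih =>
    simp only [List.cons_append, lev, ih, List.length_cons, pow_succ']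
    ring

theorem lev_replicate_zero (B : ℤ) : ∀ w : ℕ, lev id (List.replicate w (0 : ℤ)) B = 0
  | 0 => rfl
  | w + 1 => by simp [List.replicate_succ, lev, lev_replicate_zero B w]

theorem flatL_spec {α : Type} (fl : α → List ℤ) (w : ℕ) (pk : α → ℤ) (wt : α → ℕ)
    (good : α → Prop) (B : ℤ)
    (h : ∀ c, good c → (fl c).length = w ∧ lev id (fl c) B = pk c ∧
      ∀ a ∈ fl c, a.natAbs ≤ wt c) :
    ∀ (m : ℕ) (l : List α), l.length ≤ m → (∀ c ∈ l, good c) →
      (flatL fl w m l).length = m * w ∧ lev id (flatL fl w m l) B = lev pk l (B ^ w) ∧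
      ∀ a ∈ flatL fl w m l, a.natAbs ≤ lsum wt l
  | 0, l, hl, _ => by
    obtain rfl : l = [] := List.length_eq_zero_iff.1 (by omega)
    simp [flatL, lev]
  | m + 1, [], _, _ => by
    obtain ⟨h1, h2, h3⟩ := flatL_spec fl w pk wt good B h m [] (Nat.zero_le _) (by simp)
    refine ⟨?_, ?_, ?_⟩
    · simp [flatL, h1, add_mul, add_comm]
    · simp [flatL, lev_append, lev_replicate_zero, h2, lev]
    · intro a ha
      simp only [flatL, List.mem_append, List.mem_replicate] at ha
      rcases ha with ⟨-, rfl⟩ | ha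
      · simp
      · exact h3 a ha
  | m + 1, c :: cs, hl, hg => by
    simp only [List.length_cons] at hl
    simp only [List.forall_mem_cons] at hg
    obtain ⟨h1, h2, h3⟩ := flatL_spec fl w pk wt good B h m cs (by omega) hg.2
    obtain ⟨g1, g2, g3⟩ := h c hg.1
    refine ⟨?_, ?_, ?_⟩
    · simp [flatL, h1, g1, add_mul, add_comm]
    · simp [flatL, lev_append, g1, g2, h2, lev]
    · intro a ha
      simp only [flatL, List.mem_append] at ha
      simp only [lsum]
      rcases ha with ha | ha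
      · exact le_add_right (g3 a ha)
      · exact le_add_left (h3 a ha)

theorem flat_spec (B : ℤ) : ∀ (n : ℕ) (d : ℕ → ℕ) (p : P n), Fits n d p →
    (flat n d p).length = size n d ∧ lev id (flat n d p) B = ev n p (packPt B n d) ∧
    ∀ a ∈ flat n d p, a.natAbs ≤ l1 n p
  | 0, d, a, _ => by simp [flat, size, lev, ev, l1]
  | n + 1, d, l, h =>
    flatL_spec (flat n fun i => d (i + 1)) _
      (fun c => ev n c (packPt B n fun i => d (i + 1))) (l1 n)
      (Fits n fun i => d (i + 1)) B (fun c hc => flat_spec B n _ c hc) _ l h.1 h.2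

theorem mem_flatL {α : Type} (fl : α → List ℤ) (w : ℕ) :
    ∀ (m : ℕ) (l : List α), l.length ≤ m → ∀ c ∈ l, ∀ a ∈ fl c, a ∈ flatL fl w m l
  | 0, l, hl, c, hc, a, ha => by
    obtain rfl : l = [] := List.length_eq_zero_iff.1 (by omega)
    simp at hc
  | m + 1, [], _, c, hc, _, _ => by simp at hc
  | m + 1, e :: es, hl, c, hc, a, ha => by
    simp only [List.length_cons] at hl
    simp only [flatL, List.mem_append]
    rcases List.mem_cons.1 hc with rfl | hc
    · exact Or.inl ha
    · exact Or.inr (mem_flatL fl w m es (by omega) c hc a ha)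

theorem lev_nonneg {α : Type} (e : α → ℝ) {t : ℝ} (ht : 0 ≤ t) :
    ∀ l : List α, (∀ c ∈ l, 0 ≤ e c) → 0 ≤ lev e l t
  | [], _ => le_refl 0
  | c :: cs, h =>
    add_nonneg (h c List.mem_cons_self)
      (mul_nonneg ht (lev_nonneg e ht cs fun d hd => h d (List.mem_cons_of_mem _ hd)))

theorem ev_nonneg : ∀ (n : ℕ) (d : ℕ → ℕ) (p : P n) (t : ℕ → ℝ), Fits n d p →
    (∀ i, i < n → 0 ≤ t i) → (∀ a ∈ flat n d p, 0 ≤ a) → 0 ≤ ev n p t
  | 0, _, a, _, _, _, h => Int.cast_nonneg (h a (by simp [flat]))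
  | n + 1, d, l, t, hf, ht, h => lev_nonneg _ (ht 0 n.succ_pos) l fun c hc =>
      ev_nonneg n _ c _ (hf.2 c hc) (fun i hi => ht (i + 1) (by omega))
        fun a ha => h a (mem_flatL _ _ _ l hf.1 c hc a ha)

/-- All `fuel` digits in base `B` are below `B / 2`, and nothing is left. -/
def digitsOK (B : ℕ) : ℕ → ℕ → Bool
  | 0, N => Nat.beq N 0
  | k + 1, N => Nat.blt (2 * (N % B)) B && digitsOK B k (N / B)

theorem digitsOK_sound (B : ℕ) : ∀ (l : List ℤ) (N : ℕ),
    (∀ a ∈ l, 2 * a.natAbs < B) → lev id l (B : ℤ) = (N : ℤ) → digitsOK B l.length N = true →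
    ∀ a ∈ l, 0 ≤ a
  | [], _, _, _, _ => by simp
  | c :: cs, N, hb, hv, hd => by
    simp only [List.length_cons, digitsOK, Bool.and_eq_true, Nat.blt_eq] at hd
    simp only [List.forall_mem_cons] at hb
    simp only [lev, id] at hv
    have hB : (0 : ℤ) < B := by have := hb.1; omega
    have h1 : ((N % B : ℕ) : ℤ) + (B : ℤ) * ((N / B : ℕ) : ℤ) = N := by
      exact_mod_cast Nat.mod_add_div N B
    have hr : 2 * ((N % B : ℕ) : ℤ) < B := by exact_mod_cast hd.1
    have hr0 : (0 : ℤ) ≤ ((N % B : ℕ) : ℤ) := Int.natCast_nonneg _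
    have hc : -(B : ℤ) < 2 * c ∧ 2 * c < B := by have := hb.1; omega
    have h2 : (B : ℤ) * (lev id cs (B : ℤ) - ((N / B : ℕ) : ℤ)) = ((N % B : ℕ) : ℤ) - c := by
      linarith
    have h3 : lev id cs (B : ℤ) - ((N / B : ℕ) : ℤ) = 0 := by
      have hu : (B : ℤ) * (lev id cs (B : ℤ) - ((N / B : ℕ) : ℤ)) < B * 1 := by linarith
      have hl : (B : ℤ) * (-1) < B * (lev id cs (B : ℤ) - ((N / B : ℕ) : ℤ)) := by linarith
      have := lt_of_mul_lt_mul_left hu hB.le
      have := lt_of_mul_lt_mul_left hl hB.le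
      omega
    rw [h3, mul_zero] at h2
    simp only [List.forall_mem_cons]
    exact ⟨by linarith, digitsOK_sound B cs (N / B) hb.2 (by linarith) hd.2⟩

/-! ### Expressions -/

/-- Integer polynomial expressions. -/
inductive Ex
  | c (k : ℤ)
  | v (i : ℕ)
  | add (a b : Ex)
  | sub (a b : Ex)
  | mul (a b : Ex)
  | pow (a : Ex) (k : ℕ)

instance (k : ℕ) : OfNat Ex k := ⟨.c (Int.ofNat k)⟩
instance : Add Ex := ⟨.add⟩
instance : Sub Ex := ⟨.sub⟩
instance : Mul Ex := ⟨.mul⟩
instance : Neg Ex := ⟨fun a => .sub (.c 0) a⟩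
instance : Pow Ex ℕ := ⟨.pow⟩

/-- The value of an expression. -/
noncomputable def Ex.eval : Ex → (ℕ → ℝ) → ℝ
  | .c k, _ => (k : ℝ)
  | .v i, x => x i
  | .add a b, x => a.eval x + b.eval x
  | .sub a b, x => a.eval x - b.eval x
  | .mul a b, x => a.eval x * b.eval x
  | .pow a k, x => a.eval x ^ k

@[simp] theorem eval_v (i : ℕ) (x : ℕ → ℝ) : (Ex.v i).eval x = x i := rfl
@[simp] theorem eval_c (k : ℤ) (x : ℕ → ℝ) : (Ex.c k).eval x = (k : ℝ) := rfl
@[simp] theorem eval_ofNat (k : ℕ) (x : ℕ → ℝ) :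
    (no_index (OfNat.ofNat k : Ex)).eval x = (k : ℝ) := Int.cast_natCast k
@[simp] theorem eval_add (a b : Ex) (x : ℕ → ℝ) : (a + b).eval x = a.eval x + b.eval x := rfl
@[simp] theorem eval_sub (a b : Ex) (x : ℕ → ℝ) : (a - b).eval x = a.eval x - b.eval x := rfl
@[simp] theorem eval_mul (a b : Ex) (x : ℕ → ℝ) : (a * b).eval x = a.eval x * b.eval x := rfl
@[simp] theorem eval_neg (a : Ex) (x : ℕ → ℝ) : (-a).eval x = -a.eval x := by
  show ((0 : ℤ) : ℝ) - a.eval x = _
  simp
@[simp] theorem eval_pow (a : Ex) (k : ℕ) (x : ℕ → ℝ) : (a ^ k).eval x = a.eval x ^ k := rfl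

theorem continuous_eval : ∀ e : Ex, Continuous e.eval
  | .c k => continuous_const
  | .v i => continuous_apply i
  | .add a b => (continuous_eval a).add (continuous_eval b)
  | .sub a b => (continuous_eval a).sub (continuous_eval b)
  | .mul a b => (continuous_eval a).mul (continuous_eval b)
  | .pow a k => (continuous_eval a).pow k

/-- Whether all variables have index below `n`. -/
def Ex.ok (n : ℕ) : Ex → Bool
  | .c _ => true
  | .v i => Nat.blt i n
  | .add a b => a.ok n && b.ok n
  | .sub a b => a.ok n && b.ok n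
  | .mul a b => a.ok n && b.ok n
  | .pow a _ => a.ok n

/-- Degree in variable `i`. -/
def Ex.deg : Ex → ℕ → ℕ
  | .c _, _ => 0
  | .v j, i => bif Nat.beq j i then 1 else 0
  | .add a b, i => max (a.deg i) (b.deg i)
  | .sub a b, i => max (a.deg i) (b.deg i)
  | .mul a b, i => a.deg i + b.deg i
  | .pow a k, i => k * a.deg i

/-! ### Homogenisation over abstract operations -/

/-- Operations: constants, numerators, denominators, sum, product. -/
structure Ops (R : Type) where
  c : ℤ → R
  num : ℕ → R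
  den : ℕ → R
  add : R → R → R
  mul : R → R → R

/-- Power. -/
def Ops.pw {R : Type} (o : Ops R) (r : R) : ℕ → R
  | 0 => o.c 1
  | k + 1 => o.mul r (o.pw r k)

/-- Product of powers of the denominators. -/
def Ops.pad {R : Type} (o : Ops R) (k : ℕ → ℕ) : ℕ → R
  | 0 => o.c 1
  | m + 1 => o.mul (o.pw (o.den m) (k m)) (o.pad k m)

/-- The homogenised substitution. -/
def Ex.hom {R : Type} (n : ℕ) (o : Ops R) : Ex → R
  | .c k => o.c k
  | .v i => o.num i
  | .add a b => o.add (o.mul (a.hom n o) (o.pad (fun i => (Ex.add a b).deg i - a.deg i) n))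
      (o.mul (b.hom n o) (o.pad (fun i => (Ex.add a b).deg i - b.deg i) n))
  | .sub a b => o.add (o.mul (a.hom n o) (o.pad (fun i => (Ex.sub a b).deg i - a.deg i) n))
      (o.mul (o.c (-1)) (o.mul (b.hom n o) (o.pad (fun i => (Ex.sub a b).deg i - b.deg i) n)))
  | .mul a b => o.mul (a.hom n o) (b.hom n o)
  | .pow a k => o.pw (a.hom n o) k

/-- A relation compatible with two operation records passes to homogenisations. -/
theorem hom_rel {R S : Type} (o : Ops R) (o' : Ops S) (Rel : R → S → Prop) (n : ℕ)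
    (hc : ∀ k, Rel (o.c k) (o'.c k)) (hnum : ∀ i, i < n → Rel (o.num i) (o'.num i))
    (hden : ∀ i, i < n → Rel (o.den i) (o'.den i))
    (hadd : ∀ a a' b b', Rel a a' → Rel b b' → Rel (o.add a b) (o'.add a' b'))
    (hmul : ∀ a a' b b', Rel a a' → Rel b b' → Rel (o.mul a b) (o'.mul a' b')) :
    ∀ e : Ex, e.ok n = true → Rel (e.hom n o) (e.hom n o') := by
  have hpw : ∀ r r', Rel r r' → ∀ k, Rel (o.pw r k) (o'.pw r' k) := by
    intro r r' hr k
    induction k with
    | zero => exact hc 1
    | succ k ih => exact hmul _ _ _ _ hr ih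
  have hpad : ∀ k : ℕ → ℕ, ∀ m, m ≤ n → Rel (o.pad k m) (o'.pad k m) := by
    intro k m hm
    induction m with
    | zero => exact hc 1
    | succ m ih => exact hmul _ _ _ _ (hpw _ _ (hden m (by omega)) _) (ih (by omega))
  intro e
  induction e with
  | c k => exact fun _ => hc k
  | v i => exact fun h => hnum i (by simpa [Ex.ok] using h)
  | add a b iha ihb =>
    intro h
    simp only [Ex.ok, Bool.and_eq_true] at h
    exact hadd _ _ _ _ (hmul _ _ _ _ (iha h.1) (hpad _ n le_rfl))
      (hmul _ _ _ _ (ihb h.2) (hpad _ n le_rfl))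
  | sub a b iha ihb =>
    intro h
    simp only [Ex.ok, Bool.and_eq_true] at h
    exact hadd _ _ _ _ (hmul _ _ _ _ (iha h.1) (hpad _ n le_rfl))
      (hmul _ _ _ _ (hc _) (hmul _ _ _ _ (ihb h.2) (hpad _ n le_rfl)))
  | mul a b iha ihb =>
    intro h
    simp only [Ex.ok, Bool.and_eq_true] at h
    exact hmul _ _ _ _ (iha h.1) (ihb h.2)
  | pow a k iha => exact fun h => hpw _ _ (iha (by simpa [Ex.ok] using h)) k

/-! ### Boxes -/

/-- An interval `[lo / den, hi / den]`. -/
structure Iv where
  lo : ℤ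
  hi : ℤ
  den : ℤ
deriving Inhabited

/-- Membership. -/
def Iv.Mem (I : Iv) (x : ℝ) : Prop := (I.lo : ℝ) ≤ I.den * x ∧ I.den * x ≤ (I.hi : ℝ)

/-- Lower half. -/
def Iv.low (I : Iv) : Iv := ⟨2 * I.lo, I.lo + I.hi, 2 * I.den⟩

/-- Upper half. -/
def Iv.high (I : Iv) : Iv := ⟨I.lo + I.hi, 2 * I.hi, 2 * I.den⟩

theorem Iv.mem_split {I : Iv} {x : ℝ} (h : I.Mem x) : I.low.Mem x ∨ I.high.Mem x := by
  obtain ⟨h1, h2⟩ := h
  rcases le_total (2 * (I.den : ℝ) * x) (I.lo + I.hi) with h3 | h3
  · left
    constructor <;> simp only [Iv.low] <;> push_cast <;> linarith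
  · right
    constructor <;> simp only [Iv.high] <;> push_cast <;> linarith

/-- A box is the list of its intervals, variable `0` first. -/
def BoxMem : List Iv → (ℕ → ℝ) → Prop
  | [], _ => True
  | I :: B, x => I.Mem (x 0) ∧ BoxMem B fun i => x (i + 1)

/-- The interval of variable `i`. -/
def getIv : List Iv → ℕ → Iv
  | [], _ => ⟨0, 1, 1⟩
  | I :: _, 0 => I
  | _ :: B, i + 1 => getIv B i

theorem boxMem_get : ∀ (B : List Iv) (x : ℕ → ℝ), BoxMem B x → ∀ i, i < B.length →
    (getIv B i).Mem (x i)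
  | [], _, _, i, hi => absurd hi (Nat.not_lt_zero i)
  | _ :: _, _, h, 0, _ => h.1
  | _ :: B, _, h, i + 1, hi =>
    boxMem_get B _ h.2 i (by simpa using hi)

/-- Nonnegative integer. -/
def isNN : ℤ → Bool
  | .ofNat _ => true
  | .negSucc _ => false

/-- Positive integer. -/
def isPos : ℤ → Bool
  | .ofNat (_ + 1) => true
  | _ => false

theorem isPos_iff {k : ℤ} (h : isPos k = true) : 0 < k := by
  rcases k with (_ | k) | k
  · simp [isPos] at h
  · exact Int.natCast_pos.2 (Nat.succ_pos k)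
  · simp [isPos] at h

/-- Real operations. -/
noncomputable def opsR (bx : List Iv) (t : ℕ → ℝ) : Ops ℝ where
  c k := k
  num i := (getIv bx i).lo + (getIv bx i).hi * t i
  den i := (getIv bx i).den * (1 + t i)
  add := (· + ·)
  mul := (· * ·)

/-- Packed operations. -/
def opsZ (bx : List Iv) (T : ℕ → ℤ) : Ops ℤ where
  c k := k
  num i := Int.add (getIv bx i).lo (Int.mul (getIv bx i).hi (T i))
  den i := Int.mul (getIv bx i).den (Int.add 1 (T i))
  add := Int.add
  mul := Int.mul

/-- Coefficient bound operations. -/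
def opsN (bx : List Iv) : Ops ℕ where
  c k := k.natAbs
  num i := (getIv bx i).lo.natAbs + (getIv bx i).hi.natAbs
  den i := (getIv bx i).den.natAbs * 2
  add := Nat.add
  mul := Nat.mul

/-- Polynomial operations (proof only). -/
def opsP (bx : List Iv) (n : ℕ) : Ops (P n) where
  c := cst n
  num i := add n (cst n (getIv bx i).lo) (mul n (cst n (getIv bx i).hi) (var n i))
  den i := mul n (cst n (getIv bx i).den) (add n (cst n 1) (var n i))
  add := add n
  mul := mul n

theorem fits_num (bx : List Iv) (n i : ℕ) : Fits n (delta i) ((opsP bx n).num i) := by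
  refine fits_add n (fits_cst n _ _) ?_
  exact fits_mono n (fun j _ => by simp) (fits_mul n (fits_cst n _ fun _ => 0) (fits_var n i))

theorem fits_den (bx : List Iv) (n i : ℕ) : Fits n (delta i) ((opsP bx n).den i) :=
  fits_mono n (fun j _ => by simp)
    (fits_mul n (fits_cst n _ fun _ => 0) (fits_add n (fits_cst n _ _) (fits_var n i)))

theorem fits_pw (bx : List Iv) (n : ℕ) {d : ℕ → ℕ} {r : P n} (h : Fits n d r) :
    ∀ k : ℕ, Fits n (fun i => k * d i) ((opsP bx n).pw r k)
  | 0 => fits_cst n 1 _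
  | k + 1 => fits_mono n (fun i _ => by show d i + k * d i ≤ _; ring_nf; exact le_rfl)
      (fits_mul n h (fits_pw bx n h k))

theorem fits_pad (bx : List Iv) (n : ℕ) (k : ℕ → ℕ) :
    ∀ m, m ≤ n → Fits n (fun i => if i < m then k i else 0) ((opsP bx n).pad k m)
  | 0, _ => fits_cst n 1 _
  | m + 1, hm => by
    refine fits_mono n (fun i _ => ?_)
      (fits_mul n (fits_pw bx n (fits_den bx n m) (k m)) (fits_pad bx n k m (by omega)))
    by_cases h : m = i
    · subst h; simp [delta]
    · by_cases h' : i < m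
      · simp [delta, h, h', show i < m + 1 by omega]
      · simp [delta, h, h']

theorem fits_hom (bx : List Iv) (n : ℕ) : ∀ e : Ex, Fits n e.deg (e.hom n (opsP bx n))
  | .c k => fits_cst n k _
  | .v i => fits_mono n (fun j _ => by simp [delta, Ex.deg, Bool.cond_eq_ite])
      (fits_num bx n i)
  | .add a b => by
    refine fits_add n ?_ ?_
    · exact fits_mono n (fun i hi => by simp [hi, Ex.deg])
        (fits_mul n (fits_hom bx n a) (fits_pad bx n _ n le_rfl))
    · exact fits_mono n (fun i hi => by simp [hi, Ex.deg])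
        (fits_mul n (fits_hom bx n b) (fits_pad bx n _ n le_rfl))
  | .sub a b => by
    refine fits_add n ?_ ?_
    · exact fits_mono n (fun i hi => by simp [hi, Ex.deg])
        (fits_mul n (fits_hom bx n a) (fits_pad bx n _ n le_rfl))
    · exact fits_mono n (fun i hi => by simp [hi, Ex.deg])
        (fits_mul n (fits_cst n _ fun _ => 0)
          (fits_mul n (fits_hom bx n b) (fits_pad bx n _ n le_rfl)))
  | .mul a b => fits_mul n (fits_hom bx n a) (fits_hom bx n b)
  | .pow a k => fits_pw bx n (fits_hom bx n a) k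

theorem pw_eq (bx : List Iv) (t : ℕ → ℝ) (r : ℝ) : ∀ k : ℕ, (opsR bx t).pw r k = r ^ k
  | 0 => Int.cast_one
  | k + 1 => by
    show r * (opsR bx t).pw r k = _
    rw [pw_eq bx t r k, pow_succ']

theorem pad_eq (bx : List Iv) (t : ℕ → ℝ) (k : ℕ → ℕ) : ∀ m : ℕ,
    (opsR bx t).pad k m = ∏ i ∈ Finset.range m, (opsR bx t).den i ^ k i
  | 0 => Int.cast_one
  | m + 1 => by
    show (opsR bx t).pw _ _ * (opsR bx t).pad k m = _
    rw [pw_eq, pad_eq bx t k m, Finset.prod_range_succ, mul_comm]

theorem hom_eval (bx : List Iv) (n : ℕ) (t x : ℕ → ℝ)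
    (hx : ∀ i, i < n → (opsR bx t).num i = x i * (opsR bx t).den i) :
    ∀ e : Ex, e.ok n = true →
      e.hom n (opsR bx t) = e.eval x * ∏ i ∈ Finset.range n, (opsR bx t).den i ^ e.deg i := by
  have key : ∀ (d d' : ℕ → ℕ), (∀ i, d i ≤ d' i) →
      (∏ i ∈ Finset.range n, (opsR bx t).den i ^ d i) *
        (opsR bx t).pad (fun i => d' i - d i) n =
      ∏ i ∈ Finset.range n, (opsR bx t).den i ^ d' i := by
    intro d d' h
    rw [pad_eq, ← Finset.prod_mul_distrib]
    exact Finset.prod_congr rfl fun i _ => by rw [← pow_add, Nat.add_sub_cancel' (h i)]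
  intro e
  induction e with
  | c k =>
    intro _
    simp [Ex.hom, Ex.eval, Ex.deg, opsR]
  | v j =>
    intro h
    have hj : j < n := by simpa [Ex.ok] using h
    show (opsR bx t).num j = _
    rw [hx j hj, Finset.prod_eq_single j]
    · simp [Ex.eval, Ex.deg, Bool.cond_eq_ite]
    · intro i _ hi
      simp [Ex.deg, Bool.cond_eq_ite, hi.symm]
    · simp [hj]
  | add a b iha ihb =>
    intro h
    simp only [Ex.ok, Bool.and_eq_true] at h
    show a.hom n _ * _ + b.hom n _ * _ = _
    rw [iha h.1, ihb h.2, mul_assoc, mul_assoc, key a.deg (Ex.add a b).deg fun i => le_max_left _ _,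
      key b.deg (Ex.add a b).deg fun i => le_max_right _ _]
    exact (add_mul _ _ _).symm
  | sub a b iha ihb =>
    intro h
    simp only [Ex.ok, Bool.and_eq_true] at h
    show a.hom n _ * _ + ((-1 : ℤ) : ℝ) * (b.hom n _ * _) = _
    rw [iha h.1, ihb h.2, mul_assoc, mul_assoc, key a.deg (Ex.sub a b).deg fun i => le_max_left _ _,
      key b.deg (Ex.sub a b).deg fun i => le_max_right _ _]
    show _ = (a.eval x - b.eval x) * _
    push_cast
    ring
  | mul a b iha ihb =>
    intro h
    simp only [Ex.ok, Bool.and_eq_true] at h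
    show a.hom n _ * b.hom n _ = _
    simp only [iha h.1, ihb h.2, Ex.eval, Ex.deg, pow_add, Finset.prod_mul_distrib]
    ring
  | pow a k iha =>
    intro h
    show (opsR bx t).pw _ k = _
    simp only [pw_eq, iha (by simpa [Ex.ok] using h), Ex.eval, Ex.deg, mul_pow,
      ← Finset.prod_pow, ← pow_mul, mul_comm k]

/-- The intervals of the first `n` variables are proper. -/
def boxOK : ℕ → List Iv → Bool
  | 0, _ => true
  | _ + 1, [] => false
  | n + 1, I :: B => isPos (Int.sub I.hi I.lo) && isPos I.den && boxOK n B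

theorem boxOK_get : ∀ (n : ℕ) (B : List Iv), boxOK n B = true → ∀ i, i < n →
    (getIv B i).lo < (getIv B i).hi ∧ 0 < (getIv B i).den ∧ i < B.length
  | 0, _, _, i, hi => absurd hi (Nat.not_lt_zero i)
  | n + 1, [], h, _, _ => by simp [boxOK] at h
  | n + 1, I :: B, h, i, hi => by
    simp only [boxOK, Bool.and_eq_true] at h
    obtain ⟨⟨h1, h2⟩, h3⟩ := h
    cases i with
    | zero => exact ⟨sub_pos.1 (isPos_iff h1), isPos_iff h2, by simp⟩
    | succ i =>
      obtain ⟨g1, g2, g3⟩ := boxOK_get n B h3 i (by omega)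
      exact ⟨g1, g2, by simpa using g3⟩

/-- Digit test of a packed value. -/
def packedOK (B k : ℕ) : ℤ → Bool
  | .ofNat N => digitsOK B k N
  | .negSucc _ => false

/-- The checker on a single box, given the degree list, number of monomials and bound. -/
def boxCheck (n : ℕ) (e : Ex) (bx : List Iv) : Bool :=
  boxOK n bx && packedOK (2 * e.hom n (opsN bx) + 1) (size n e.deg)
    (e.hom n (opsZ bx (packPt (Int.ofNat (2 * e.hom n (opsN bx) + 1)) n e.deg)))

theorem boxCheck_coeffs (n : ℕ) (e : Ex) (bx : List Iv) (ho : e.ok n = true)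
    (h : boxCheck n e bx = true) :
    ∀ a ∈ flat n e.deg (e.hom n (opsP bx n)), 0 ≤ a := by
  simp only [boxCheck, Bool.and_eq_true] at h
  obtain ⟨-, h⟩ := h
  generalize hN : e.hom n (opsN bx) = M at h
  set G := e.hom n (opsP bx n) with hG
  set T := packPt (Int.ofNat (2 * M + 1)) n e.deg with hT
  have hev : ev n G T = e.hom n (opsZ bx T) := by
    refine hom_rel (opsP bx n) (opsZ bx T) (fun p z => ev n p T = z) n (fun k => ?_)
      (fun i hi => ?_) (fun i hi => ?_) (fun a a' b b' ha hb => ?_)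
      (fun a a' b b' ha hb => ?_) e ho
    · simp [opsP, opsZ, ev_cst]
    · simp [opsP, opsZ, ev_cst, ev_add, ev_mul, ev_var n i _ hi]
    · simp [opsP, opsZ, ev_cst, ev_add, ev_mul, ev_var n i _ hi]
    · simp [opsP, opsZ, ev_add, ha, hb]
    · simp [opsP, opsZ, ev_mul, ha, hb]
  have hl1 : l1 n G ≤ M := by
    rw [← hN]
    refine hom_rel (opsP bx n) (opsN bx) (fun p m => l1 n p ≤ m) n (fun k => ?_)
      (fun i hi => ?_) (fun i hi => ?_) (fun a a' b b' ha hb => ?_)
      (fun a a' b b' ha hb => ?_) e ho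
    · exact (l1_cst n k).le
    · refine (l1_add n _ _).trans (add_le_add (l1_cst n _).le ((l1_mul n _ _).trans ?_))
      rw [l1_cst]
      exact mul_le_of_le_one_right (Nat.zero_le _) (l1_var n i)
    · refine (l1_mul n _ _).trans (Nat.mul_le_mul (l1_cst n _).le ((l1_add n _ _).trans ?_))
      have := l1_var n i
      have : l1 n (cst n 1) = 1 := l1_cst n 1
      omega
    · exact (l1_add n _ _).trans (add_le_add ha hb)
    · exact (l1_mul n _ _).trans (Nat.mul_le_mul ha hb)
  obtain ⟨s1, s2, s3⟩ := flat_spec (Int.ofNat (2 * M + 1)) n e.deg G (fits_hom bx n e)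
  rcases hz : e.hom n (opsZ bx T) with N | N
  · rw [hz] at h
    refine digitsOK_sound (2 * M + 1) _ N (fun a ha => ?_) ?_ (by rw [s1]; exact h)
    · have := s3 a ha
      omega
    · have := s2.trans (hev.trans hz)
      simpa using this
  · rw [hz] at h
    simp [packedOK] at h

theorem boxCheck_sound (n : ℕ) (e : Ex) (bx : List Iv) (ho : e.ok n = true)
    (h : boxCheck n e bx = true) (x : ℕ → ℝ) (hx : BoxMem bx x) : 0 ≤ e.eval x := by
  have hb : boxOK n bx = true := by
    simp only [boxCheck, Bool.and_eq_true] at h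
    exact h.1
  have hI := boxOK_get n bx hb
  have interior : ∀ y : ℕ → ℝ, (∀ i, i < n → ((getIv bx i).lo : ℝ) ≤ (getIv bx i).den * y i ∧
      (getIv bx i).den * y i < ((getIv bx i).hi : ℝ)) → 0 ≤ e.eval y := by
    intro y hy
    set t : ℕ → ℝ := fun i => ((getIv bx i).den * y i - (getIv bx i).lo) /
      ((getIv bx i).hi - (getIv bx i).den * y i) with ht
    have ht0 : ∀ i, i < n → 0 ≤ t i := fun i hi => div_nonneg (by linarith [(hy i hi).1])
      (by linarith [(hy i hi).2])
    have hden : ∀ i, i < n → 0 < (opsR bx t).den i := fun i hi =>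
      mul_pos (Int.cast_pos.2 (hI i hi).2.1) (by have := ht0 i hi; linarith)
    have hnum : ∀ i, i < n → (opsR bx t).num i = y i * (opsR bx t).den i := by
      intro i hi
      have hne : ((getIv bx i).hi : ℝ) - (getIv bx i).den * y i ≠ 0 := by
        have := (hy i hi).2
        intro h0; linarith
      simp only [opsR, ht]
      field_simp
      ring
    have hev : ev n (e.hom n (opsP bx n)) t = e.hom n (opsR bx t) := by
      refine hom_rel (opsP bx n) (opsR bx t) (fun p z => ev n p t = z) n (fun k => ?_)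
        (fun i hi => ?_) (fun i hi => ?_) (fun a a' b b' ha hb => ?_)
        (fun a a' b b' ha hb => ?_) e ho
      · simp [opsP, opsR, ev_cst]
      · simp [opsP, opsR, ev_cst, ev_add, ev_mul, ev_var n i _ hi]
      · simp [opsP, opsR, ev_cst, ev_add, ev_mul, ev_var n i _ hi]
      · simp [opsP, opsR, ev_add, ha, hb]
      · simp [opsP, opsR, ev_mul, ha, hb]
    have h0 := ev_nonneg n e.deg _ t (fits_hom bx n e) ht0 (boxCheck_coeffs n e bx ho h)
    rw [hev, hom_eval bx n t y hnum e ho] at h0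
    exact (mul_nonneg_iff_of_pos_right
      (Finset.prod_pos fun i hi => pow_pos (hden i (Finset.mem_range.1 hi)) _)).1 h0
  set path : ℝ → ℕ → ℝ := fun s i =>
    (1 - s) * x i + s * (((getIv bx i).lo : ℝ) / (getIv bx i).den) with hpath
  have hc : Continuous fun s => e.eval (path s) :=
    (continuous_eval e).comp (continuous_pi fun i => by simp only [hpath]; fun_prop)
  have hin : Set.Ioc (0 : ℝ) 1 ⊆ {s | 0 ≤ e.eval (path s)} := by
    rintro s ⟨hs0, hs1⟩
    refine interior _ fun i hi => ?_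
    obtain ⟨h1, h2, h3⟩ := hI i hi
    have hd : ((getIv bx i).den : ℝ) ≠ 0 := (Int.cast_pos.2 h2).ne'
    have hlh : ((getIv bx i).lo : ℝ) < (getIv bx i).hi := Int.cast_lt.2 h1
    obtain ⟨m1, m2⟩ := boxMem_get bx x hx i h3
    have e1 : ((getIv bx i).den : ℝ) * path s i =
        (1 - s) * ((getIv bx i).den * x i) + s * (getIv bx i).lo := by
      simp only [hpath]
      field_simp
    rw [e1]
    constructor
    · nlinarith
    · nlinarith
  have hcl := closure_minimal hin (isClosed_le continuous_const hc)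
  rw [closure_Ioc (by norm_num)] at hcl
  have h0 := hcl ⟨le_refl (0 : ℝ), zero_le_one⟩
  simpa [hpath] using h0

/-! ### The checker -/

/-- Bisections of a box: `cut i l r` halves variable `i`. -/
inductive Cut
  | leaf
  | cut (i : ℕ) (l r : Cut)
deriving Inhabited

/-- Number of leaves. -/
def Cut.leaves : Cut → ℕ
  | .leaf => 1
  | .cut _ l r => l.leaves + r.leaves

/-- Replace one interval by a half. -/
def halve (g : Iv → Iv) : ℕ → List Iv → List Iv
  | _, [] => []
  | 0, I :: B => g I :: B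
  | i + 1, I :: B => I :: halve g i B

theorem boxMem_split : ∀ (i : ℕ) (B : List Iv) (x : ℕ → ℝ), BoxMem B x →
    BoxMem (halve Iv.low i B) x ∨ BoxMem (halve Iv.high i B) x
  | 0, [], _, h => Or.inl h
  | _ + 1, [], _, h => Or.inl h
  | 0, _ :: _, _, ⟨hI, hB⟩ =>
    (Iv.mem_split hI).imp (fun h => ⟨h, hB⟩) fun h => ⟨h, hB⟩
  | i + 1, _ :: B, _, ⟨hI, hB⟩ =>
    (boxMem_split i B _ hB).imp (fun h => ⟨hI, h⟩) fun h => ⟨hI, h⟩

/-- The checker on a bisected box. -/
def checkCut (n : ℕ) (e : Ex) : Cut → List Iv → Bool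
  | .leaf, B => boxCheck n e B
  | .cut i l r, B => checkCut n e l (halve Iv.low i B) && checkCut n e r (halve Iv.high i B)

theorem checkCut_sound (n : ℕ) (e : Ex) (ho : e.ok n = true) :
    ∀ (T : Cut) (B : List Iv) (x : ℕ → ℝ),
      checkCut n e T B = true → BoxMem B x → 0 ≤ e.eval x
  | .leaf, B, x, h, hB => boxCheck_sound n e B ho h x hB
  | .cut i l r, B, x, h, hB => by
    simp only [checkCut, Bool.and_eq_true] at h
    rcases boxMem_split i B x hB with h' | h'
    · exact checkCut_sound n e ho l _ x h.1 h'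
    · exact checkCut_sound n e ho r _ x h.2 h'

/-- The complete check of an expression. -/
def check (n : ℕ) (e : Ex) (B : List Iv) (T : Cut) : Bool :=
  e.ok n && checkCut n e T B

/-- Soundness: use as `nonneg_of_check e B T (by decide +kernel) x hx`. -/
theorem nonneg_of_check {n : ℕ} (e : Ex) (B : List Iv) (T : Cut) (h : check n e B T = true)
    (x : ℕ → ℝ) (hx : BoxMem B x) : 0 ≤ e.eval x := by
  simp only [check, Bool.and_eq_true] at h
  exact checkCut_sound n e h.1 T B x h.2 hx

/-- The point with the given coordinates. -/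
def pt : List ℝ → ℕ → ℝ
  | [], _ => 0
  | a :: _, 0 => a
  | _ :: l, i + 1 => pt l i

@[simp] theorem pt_zero (a : ℝ) (l : List ℝ) : pt (a :: l) 0 = a := rfl
@[simp] theorem pt_succ (a : ℝ) (l : List ℝ) (i : ℕ) : pt (a :: l) (i + 1) = pt l i := rfl
@[simp] theorem pt_one (a b : ℝ) (l : List ℝ) : pt (a :: b :: l) 1 = b := rfl
@[simp] theorem pt_two (a b c : ℝ) (l : List ℝ) : pt (a :: b :: c :: l) 2 = c := rfl

/-- One variable. -/
theorem nonneg₁ (e : Ex) (I : Iv) (T : Cut) (h : check 1 e [I] T = true) {x : ℝ}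
    (hx : I.Mem x) : 0 ≤ e.eval (pt [x]) :=
  nonneg_of_check e [I] T h _ ⟨hx, trivial⟩

/-- Two variables. -/
theorem nonneg₂ (e : Ex) (I J : Iv) (T : Cut) (h : check 2 e [I, J] T = true) {x y : ℝ}
    (hx : I.Mem x) (hy : J.Mem y) : 0 ≤ e.eval (pt [x, y]) :=
  nonneg_of_check e [I, J] T h _ ⟨hx, hy, trivial⟩

/-- Three variables. -/
theorem nonneg₃ (e : Ex) (I J K : Iv) (T : Cut) (h : check 3 e [I, J, K] T = true) {x y z : ℝ}
    (hx : I.Mem x) (hy : J.Mem y) (hz : K.Mem z) : 0 ≤ e.eval (pt [x, y, z]) :=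
  nonneg_of_check e [I, J, K] T h _ ⟨hx, hy, hz, trivial⟩

end Vale.Agent.P154.PolyCheck
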